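/-!
# Row 214: isoperimetry in the cubic three-torus.  Blueprint (owner helper22)

* T1-T3: the perimeter is the limit of the nonlocal energy `NE` (average of `|E Δ (E - ε h)| / ε` over the
  unit ball), with `NE ≤ c0 P` for every `ε`.
* T4-T7: Steiner symmetrisation does not increase `NE` up to `o(1)` (triangle inequality on fibres and
  the fact that a nontrivial subset of the circle has perimeter at least two).
* T8-T9: equality case: fibres are arcs, centres are constant; models `Mod J c r`.
* D1-D2: after three symmetrisations one has a down-set `D` of the unit cube; its derivative measures
  are explicit, so every Borel unit field is a calibration (`Cal`).
* D3-D4: slice along the third coordinate.  A slice touches both far sides (phase I), one (II) or none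
  (III); explicit calibrations give lower bounds of the length that remember the traces `s`, `w` at the
  two transition times.  The direction is chosen from the sizes of the far traces (`exists_case`).
* N1-N4: the one-dimensional problem `OneD`: branch and bound over
  `(amin, amax, a0, a1, w, s, V)` with a dual line per leaf, and three analytic lemmas near the
  cylinder, the ball and the slab.
* D5-D6, Fin: equality cases and assembly.
-/
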