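import Mathlib

/-! Row 214: the rational branch-and-bound checker (definitions only).  FROZEN. -/

set_option autoImplicit false

namespace Crest.Agent.R214

/-- round down to a multiple of `2^-32` -/
def rd (q : ℚ) : ℚ := mkRat (q.num * 4294967296 / q.den) 4294967296
/-- round up to a multiple of `2^-32` -/
def ru (q : ℚ) : ℚ := -rd (-q)
def piLo : ℚ := mkRat 3141592 1000000
def piHi : ℚ := mkRat 3141593 1000000

def nit (n : ℕ) : ℕ → ℕ → ℕ
  | 0, g => g
  | k + 1, g => nit n k ((g + n / g) / 2)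

/-- a lower bound of the square root, checked -/
def sqLo (q : ℚ) : ℚ :=
  let n := (q.num * 18446744073709551616 / q.den).toNat
  let g := nit n 6 (2 ^ (n.log2 / 2 + 1))
  let y := mkRat ((n / (g + 1) : ℕ) : ℤ) 4294967296
  if y * y ≤ q then y else 0

/-- lower bound of `z / x + π x / 4` over `x ∈ [e, w]` -/
def capLo (e w z : ℚ) : ℚ :=
  if 0 < e ∧ 4 * z ≤ piLo * e * e then rd (z / e + piLo * e / 4)
  else if 0 < w ∧ piHi * w * w ≤ 4 * z then rd (z / w + piLo * w / 4)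
  else sqLo (piLo * z)

def Gq (p q : ℚ) : ℚ :=
  1 - (p * p + p * q + q * q) / 6 -
    49 / 1000 * (p * p * p * p + p * p * p * q + p * p * q * q + p * q * q * q + q * q * q * q)

def clampPhi (a : ℚ) : ℚ :=
  let b := mkRat (a.num * 64 / a.den) 64
  if b ≤ 0 then 0 else if 7 / 8 ≤ b then 7 / 8 else b

/-- heuristic choice of the calibration angles (only `0 ≤ · ≤ 7/8` matters) -/
def phi (X Y : ℚ) : ℚ × ℚ :=
  if X ≤ 0 ∧ Y ≤ 0 then (0, 0) else
  let a := 4 * X - 2 * Y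
  let b := 4 * Y - 2 * X
  let a' := if a ≤ 0 then 0 else if b ≤ 0 then 3 * X else a
  let b' := if a ≤ 0 then 3 * Y else if b ≤ 0 then 0 else b
  let m := max a' b'
  let sc := rd (1 / (1 + 7 / 20 * m * m))
  (clampPhi (a' * sc), clampPhi (b' * sc))

structure Box where
  (x0 x1 y0 y1 p0 p1 q0 q1 w0 w1 s0 s1 v0 v1 : ℚ)

/-- the order constraints `amin ≤ a0 ≤ a1 ≤ amax`, `amin ≤ V ≤ amax` -/
def Box.tight (b : Box) : Box :=
  let p0 := max b.p0 b.x0
  let q0 := max b.q0 p0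
  let q1 := min b.q1 b.y1
  let p1 := min b.p1 q1
  { x0 := b.x0, x1 := min b.x1 (min p1 b.v1), y0 := max b.y0 (max q0 b.v0), y1 := b.y1,
    p0 := p0, p1 := p1, q0 := q0, q1 := q1, w0 := b.w0, w1 := b.w1, s0 := b.s0, s1 := b.s1,
    v0 := max b.v0 b.x0, v1 := min b.v1 b.y1 }

def al : ℚ := mkRat 5 64

/-- the line `l z + c`, the offsets of phases I, II and the lower ends of the cap widths -/
structure Prm where
  (l c o1 o2 e1 e3 : ℚ)

/-- one phase on one cell: `none` if the line is not below the minorant, else an affine majorant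
of the ratio -/
def ratio (m0 m1 A0 A1 : ℚ) : Option (ℚ × ℚ) :=
  if A0 < 0 ∨ A1 < 0 then none
  else if m0 ≤ 0 ∧ m1 ≤ 0 then some (0, 0)
  else if m0 ≤ A0 ∧ m1 ≤ A1 then
    if 0 < A0 ∧ 0 < A1 then
      let r0 := ru (m0 / A0)
      let r1 := ru (m1 / A1)
      let d := (r1 - r0) * (A1 - A0)
      let pad := if 0 < d then ru (d / (4 * min A0 A1)) else 0
      some (r0 + pad, r1 + pad)
    else some (1, 1)
  else none

def omax : Option (ℚ × ℚ) → Option (ℚ × ℚ) → Option (ℚ × ℚ)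
  | some (a, b), some (c, d) => some (max a c, max b d)
  | _, _ => none

/-- the pair `(R0, R1)` of a cell -/
def cellR (b : Box) (k : Prm) (z0 z1 : ℚ) : Option (ℚ × ℚ) :=
  let m0 := k.l * z0 + k.c
  let m1 := k.l * z1 + k.c
  let r1 := if b.q0 ≤ z1 then
      ratio (m0 + k.o1) (m1 + k.o1) (capLo k.e1 (1 - b.s0) (1 - z0)) (capLo k.e1 (1 - b.s0) (1 - z1))
    else some (0, 0)
  let r2 := if b.p0 ≤ z1 ∧ z0 ≤ b.q1 then
      let zm := (z0 + z1) / 2
      let f := phi (b.w0 - zm) (zm - b.s1)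
      let g := rd (Gq f.1 f.2)
      ratio (m0 + k.o2) (m1 + k.o2) (f.1 * (b.w0 - z0) + f.2 * (z0 - b.s1) + g)
        (f.1 * (b.w0 - z1) + f.2 * (z1 - b.s1) + g)
    else some (0, 0)
  let r3 := if z0 ≤ b.p1 then ratio m0 m1 (capLo k.e3 b.w1 z0) (capLo k.e3 b.w1 z1)
    else some (0, 0)
  omax (some (0, 0)) (omax r1 (omax r2 r3))

/-- lower bound for the integral of `√(1 - R²)` over a cell -/
def cellV (b : Box) (z0 z1 R0 R1 : ℚ) : ℚ :=
  if b.x1 ≤ z0 ∧ z1 ≤ b.y0 ∧ R0 ≤ 1 ∧ R1 ≤ 1 then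
    rd ((z1 - z0) * (sqLo (1 - R0 * R0) + sqLo (1 - R1 * R1)) / 2)
  else 0

/-- run over the cells; the last node has to be `b.y1` -/
def cells (b : Box) (k : Prm) : List ℚ → ℚ → ℚ → Option ℚ
  | [], z0, acc => if b.y1 ≤ z0 then some acc else none
  | z1 :: zs, z0, acc =>
    if z0 ≤ z1 ∧ z1 ≤ 1 then
      match cellR b k z0 z1 with
      | some (R0, R1) => cells b k zs z1 (acc + cellV b z0 z1 R0 R1)
      | none => none
    else none

def inner (x y : ℚ) (n : ℕ) : ℕ → List ℚ → List ℚ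
  | 0, l => l
  | i + 1, l =>
    let u : ℚ := mkRat (i + 1 : ℕ) n
    inner x y n i (rd (x + (y - x) * (3 / 4 * (u * u * (3 - 2 * u)) + u / 4)) :: l)

def nodes (b : Box) (n : ℕ) : List ℚ :=
  if b.x1 < b.y0 then
    (b.x0 + b.x1) / 2 :: b.x1 :: inner b.x1 b.y0 n (n - 1) [b.y0, (b.y0 + b.y1) / 2, b.y1]
  else
    let h := (b.y1 - b.x0) / 4
    [b.x0 + h, b.x0 + 2 * h, b.x0 + 3 * h, b.y1]

def k1 : ℚ := mkRat 10167 65536
def k2 : ℚ := mkRat 20861 65536

/-- `l V + K` exceeds the profile on `[v0, v1]` -/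
def vOK (v0 v1 l K rho r : ℚ) : Bool :=
  (if v0 ≤ k1 then
    decide (0 < r) && decide (2 * v0 / r + piHi * r * r / 6 < l * v0 + K) &&
      decide (2 * min v1 k1 / r + piHi * r * r / 6 < l * min v1 k1 + K) else true) &&
  (if v0 ≤ k2 ∧ k1 ≤ v1 then
    decide (0 < rho) && decide (max v0 k1 / rho + piHi * rho / 4 < l * max v0 k1 + K) &&
      decide (min v1 k2 / rho + piHi * rho / 4 < l * min v1 k2 + K) else true) &&
  (if k2 ≤ v1 then decide (1 < l * max v0 k2 + K) && decide (1 < l * v1 + K) else true)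

/-- case `0` = A, `1` = B1, `2` = B2 -/
def prm (cs : ℕ) (b : Box) (l c mu : ℚ) : Prm :=
  match cs with
  | 0 => ⟨l, c, mu, 0, 0, 0⟩
  | 1 => ⟨l, c, -mu, -mu, 0, min al b.w1⟩
  | _ => ⟨l, c, 0, 0, 1 - al, 0⟩

def bonus (cs : ℕ) (mu : ℚ) : ℚ :=
  match cs with
  | 0 => mu * al
  | 1 => -(mu * al)
  | _ => 0

def leafN (cs : ℕ) (b : Box) (l c mu rho r : ℚ) (n : ℕ) : Bool :=
  decide (0 ≤ mu) && decide (0 ≤ b.x0) && decide (b.y1 ≤ 1) &&
  match cells b (prm cs b l c mu) (nodes b n) b.x0 0 with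
  | some v => vOK b.v0 b.v1 l (c + bonus cs mu + v) rho r
  | none => false

/-- phases I and II stay strictly above `√(π z)` -/
def ucond (b : Box) (p q x : ℚ) : Bool :=
  decide (b.y1 ≤ 9 / 20) &&
  (decide (b.q1 ≤ 5 / 16) ||
    (decide (0 ≤ p) && decide (p ≤ 7 / 8) && decide (0 ≤ q) && decide (q ≤ 7 / 8) && decide (0 < x) &&
      (let za := max b.p0 (5 / 16)
       decide (za / x + piHi * x / 4 < p * (b.w0 - za) + q * (za - b.s1) + Gq p q) &&
       decide (b.q1 / x + piHi * x / 4 < p * (b.w0 - b.q1) + q * (b.q1 - b.s1) + Gq p q))))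

inductive Tr where
  | N (l c : ℤ) (mu rho r n : ℕ)
  | C (p q x : ℕ)
  | B (p q x : ℕ)
  | S
  | X (d p : ℕ) (a b : Tr)

def Box.setHi (b : Box) (d : ℕ) (p : ℚ) : Box :=
  match d with
  | 0 => { b with x1 := p } | 1 => { b with y1 := p } | 2 => { b with p1 := p }
  | 3 => { b with q1 := p } | 4 => { b with w1 := p } | 5 => { b with s1 := p }
  | _ => { b with v1 := p }

def Box.setLo (b : Box) (d : ℕ) (p : ℚ) : Box :=
  match d with
  | 0 => { b with x0 := p } | 1 => { b with y0 := p } | 2 => { b with p0 := p }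
  | 3 => { b with q0 := p } | 4 => { b with w0 := p } | 5 => { b with s0 := p }
  | _ => { b with v0 := p }

def chk (cs : ℕ) : Tr → Box → Bool
  | .N l c mu rho r n, b =>
    leafN cs b.tight (mkRat l 65536) (mkRat c 1048576) (mkRat mu 65536) (mkRat rho 65536)
      (mkRat r 65536) n
  | .C p q x, b =>
    decide (9 / 64 ≤ b.x0) && ucond b.tight (mkRat p 64) (mkRat q 64) (mkRat x 65536)
  | .B p q x, b =>
    decide (cs = 2) && decide (b.tight.x1 ≤ 1 / 1024) && decide (b.tight.v1 ≤ 23 / 128) &&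
      ucond b.tight (mkRat p 64) (mkRat q 64) (mkRat x 65536)
  | .S, b => decide (b.tight.x1 ≤ 1 / 2048) && decide (2047 / 2048 ≤ b.tight.y0)
  | .X d p t u, b =>
    chk cs t (b.setHi d (mkRat p 1048576)) && chk cs u (b.setLo d (mkRat p 1048576))

def root (s1 v0 v1 : ℚ) : Box := ⟨0, 1 / 2, 0, 1, 0, 1, 0, 1, 0, 1, 0, s1, v0, v1⟩

end Crest.Agent.R214
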